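import Vale.Agent.Lib.P348.helper23.Basics

/-!
A vector annihilated by a spectral polynomial of a Hermitian matrix has energy at least an
eigenvalue strictly above the lowest one (pool piece P348-K8, seat helper72).
-/

namespace Vale.Agent.Lib.P348.H72

open Matrix
open Vale.Agent.Lib.P361 Vale.Agent.Lib.P348

theorem aeval_mulVec_eig {n : Type*} [Fintype n] [DecidableEq n] (h : Matrix n n ℂ)
    (ψ : n → ℂ) (lam : ℂ) (hψ : h *ᵥ ψ = lam • ψ) (p : Polynomial ℂ) :
    Polynomial.aeval h p *ᵥ ψ = p.eval lam • ψ := by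
  induction p using Polynomial.induction_on with
  | C c =>
    rw [Polynomial.aeval_C, Polynomial.eval_C, Algebra.algebraMap_eq_smul_one,
      Matrix.smul_mulVec, Matrix.one_mulVec]
  | add s t hs ht =>
    rw [map_add, Polynomial.eval_add, Matrix.add_mulVec, hs, ht, add_smul]
  | monomial k c ih =>
    have e : (Polynomial.C c * Polynomial.X ^ (k + 1) : Polynomial ℂ)
        = Polynomial.C c * Polynomial.X ^ k * Polynomial.X := by
      rw [pow_succ, mul_assoc]
    rw [e, map_mul, Polynomial.aeval_X, Polynomial.eval_mul, Polynomial.eval_X,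
      ← Matrix.mulVec_mulVec, hψ, Matrix.mulVec_smul, ih, smul_smul, mul_comm]

theorem exists_above_gen {n : Type*} [Fintype n] [DecidableEq n] (H : Matrix n n ℂ)
    (hH : H.IsHermitian) (k0 : n) (hk0 : ∀ k, hH.eigenvalues k0 ≤ hH.eigenvalues k)
    (p : Polynomial ℂ) (hp1 : p.eval (hH.eigenvalues k0 : ℂ) = 1)
    (ψ : n → ℂ) (hψ : ψ ≠ 0) (hPψ : Polynomial.aeval H p *ᵥ ψ = 0) :
    ∃ k, hH.eigenvalues k0 < hH.eigenvalues k ∧
      hH.eigenvalues k * (∑ σ, ‖ψ σ‖ ^ 2) ≤ (∑ σ, star (ψ σ) * (H *ᵥ ψ) σ).re := by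
  classical
  set b := hH.eigenvectorBasis with hb
  set Ψ : EuclideanSpace ℂ n := WithLp.toLp 2 ψ with hΨ
  set c : n → ℂ := fun k => inner ℂ (b k) Ψ with hc
  have hsum : ∑ k, c k • b k = Ψ := b.sum_repr' Ψ
  have hψsum : ψ = ∑ k, c k • (⇑(b k) : n → ℂ) := by
    have h1 := congrArg WithLp.ofLp hsum
    rw [WithLp.ofLp_sum] at h1
    exact h1.symm
  have hv : ∀ k, H *ᵥ (⇑(b k) : n → ℂ) = (hH.eigenvalues k : ℂ) • (⇑(b k) : n → ℂ) := by
    intro k
    rw [hb, hH.mulVec_eigenvectorBasis k]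
    rfl
  have hHψ : H *ᵥ ψ = ∑ k, (c k * (hH.eigenvalues k : ℂ)) • (⇑(b k) : n → ℂ) := by
    conv_lhs => rw [hψsum]
    rw [Matrix.mulVec_sum]
    refine Finset.sum_congr rfl fun k _ => ?_
    rw [Matrix.mulVec_smul, hv k, smul_smul]
  have hPψ' : Polynomial.aeval H p *ᵥ ψ
      = ∑ k, (c k * p.eval (hH.eigenvalues k : ℂ)) • (⇑(b k) : n → ℂ) := by
    conv_lhs => rw [hψsum]
    rw [Matrix.mulVec_sum]
    refine Finset.sum_congr rfl fun k _ => ?_
    rw [Matrix.mulVec_smul, aeval_mulVec_eig H _ _ (hv k) p, smul_smul]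
  -- coefficients at the lowest eigenvalue vanish
  have hcoef : ∀ j, c j * p.eval (hH.eigenvalues j : ℂ) = 0 := by
    intro j
    have h2 : (WithLp.toLp 2 (Polynomial.aeval H p *ᵥ ψ) : EuclideanSpace ℂ n)
        = ∑ k, (c k * p.eval (hH.eigenvalues k : ℂ)) • b k := by
      rw [hPψ']
      rw [WithLp.toLp_sum]
      rfl
    have h3 := b.orthonormal.inner_right_fintype
      (fun k => c k * p.eval (hH.eigenvalues k : ℂ)) j
    rw [← h2, hPψ] at h3
    rw [← h3]
    exact inner_zero_right _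
  have hc0 : ∀ j, hH.eigenvalues j = hH.eigenvalues k0 → c j = 0 := by
    intro j hj
    have h := hcoef j
    rw [hj, hp1, mul_one] at h
    exact h
  -- Parseval
  have hnorm : (∑ σ, ‖ψ σ‖ ^ 2) = ∑ k, ‖c k‖ ^ 2 := by
    have h1 := b.sum_sq_norm_inner_right Ψ
    have h2 := EuclideanSpace.norm_sq_eq Ψ
    rw [h1, h2]
  have henergy : (∑ σ, star (ψ σ) * (H *ᵥ ψ) σ).re
      = ∑ k, hH.eigenvalues k * ‖c k‖ ^ 2 := by
    have h1 : (∑ σ, star (ψ σ) * (H *ᵥ ψ) σ)
        = inner ℂ Ψ (WithLp.toLp 2 (H *ᵥ ψ) : EuclideanSpace ℂ n) := by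
      rw [EuclideanSpace.inner_eq_star_dotProduct]
      rw [dotProduct]
      refine Finset.sum_congr rfl fun σ _ => ?_
      rw [mul_comm]
      rfl
    have h2 : (WithLp.toLp 2 (H *ᵥ ψ) : EuclideanSpace ℂ n)
        = ∑ k, (c k * (hH.eigenvalues k : ℂ)) • b k := by
      rw [hHψ, WithLp.toLp_sum]
      rfl
    rw [h1, h2, inner_sum, Complex.re_sum]
    refine Finset.sum_congr rfl fun k _ => ?_
    rw [inner_smul_right]
    have h4 : inner ℂ Ψ (b k) = (starRingEnd ℂ) (c k) := (inner_conj_symm Ψ (b k)).symm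
    rw [h4, mul_assoc, mul_comm, mul_assoc, Complex.conj_mul']
    rw [← Complex.ofReal_pow, ← Complex.ofReal_mul, Complex.ofReal_re]
  -- some coefficient is nonzero
  have hne : ∃ k, c k ≠ 0 := by
    by_contra hall
    have hall' : ∀ k, c k = 0 := fun k => by
      by_contra hk
      exact hall ⟨k, hk⟩
    apply hψ
    rw [hψsum]
    refine Finset.sum_eq_zero fun k _ => ?_
    rw [hall' k, zero_smul]
  obtain ⟨ka, hka⟩ := hne
  have hSne : (Finset.univ.filter fun k => c k ≠ 0).Nonempty :=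
    ⟨ka, Finset.mem_filter.mpr ⟨Finset.mem_univ _, hka⟩⟩
  obtain ⟨k1, hk1mem, hk1min⟩ :=
    Finset.exists_min_image _ (fun k => hH.eigenvalues k) hSne
  have hk1 : c k1 ≠ 0 := (Finset.mem_filter.mp hk1mem).2
  refine ⟨k1, ?_, ?_⟩
  · refine lt_of_le_of_ne (hk0 k1) ?_
    intro heq
    exact hk1 (hc0 k1 heq.symm)
  · rw [hnorm, henergy, Finset.mul_sum]
    refine Finset.sum_le_sum fun k _ => ?_
    by_cases hk : c k = 0
    · rw [hk, norm_zero, zero_pow two_ne_zero, mul_zero, mul_zero]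
    · have h5 := hk1min k (Finset.mem_filter.mpr ⟨Finset.mem_univ _, hk⟩)
      exact mul_le_mul_of_nonneg_right h5 (sq_nonneg _)

/-- A nonzero vector annihilated by a polynomial of the Hermitian matrix `H` that takes the
value one at the lowest eigenvalue has energy at least an eigenvalue strictly above it. -/
theorem exists_above {n : Type*} [Fintype n] [DecidableEq n] (H : Matrix n n ℂ)
    (hH : H.IsHermitian) (k0 : n) (hk0 : ∀ k, hH.eigenvalues k0 ≤ hH.eigenvalues k)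
    (p : Polynomial ℂ) (hp1 : p.eval (hH.eigenvalues k0 : ℂ) = 1)
    (hp2 : H * Polynomial.aeval H p = (hH.eigenvalues k0 : ℂ) • Polynomial.aeval H p)
    (ψ : n → ℂ) (hψ : ψ ≠ 0) (hPψ : Polynomial.aeval H p *ᵥ ψ = 0) :
    ∃ k, hH.eigenvalues k0 < hH.eigenvalues k ∧
      hH.eigenvalues k * nsq ψ ≤ (ip ψ (H *ᵥ ψ)).re := by
  have _h := hp2
  rw [nsq_def, ip_def]
  exact exists_above_gen H hH k0 hk0 p hp1 ψ hψ hPψ

end Vale.Agent.Lib.P348.H72
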